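import Vale.Agent.P259Z.Main

open CategoryTheory Limits Vale.Agent.P259Z

/-- The Grothendieck homotopy hypothesis, with the objects as posed: the globe category by
generators and relations, `Θ₀` as the category of iterated pushouts of presheaves, globular
extensions as functors from `Θ₀`, homotopy groups as groups of classes of cells. -/
theorem Vale.Agent.Results.P259.ALiteral.result :
    Nonempty Coherator ∧
    (∀ (T : ℕ ⥤ GlobExt) (c : Cocone T),
      Nonempty (IsColimit (toCat.mapCocone c)) → Nonempty (IsColimit c)) ∧
    ∀ C : Coherator,
      Nonempty C.Ops ∧ (∀ O O' : C.Ops, Coherator.weq O = Coherator.weq O') ∧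
      (∃ D : DiscFunctor C, D.discs.IsStrict) ∧
      ∀ (O : C.Ops) (D : DiscFunctor C),
        whe = (Coherator.weq O).inverseImage D.Pi ∧
        ∃ G : whe.Localization ⥤ (Coherator.weq O).Localization,
          whe.Q ⋙ G = D.Pi ⋙ (Coherator.weq O).Q ∧ G.IsEquivalence :=
  final
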